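import Mathlib

namespace Vale.Agent.Lib.P024

/-- A field `E` is solvably closed if it has no nontrivial abelian extension: every Galois
extension `L` of `E` whose Galois group is commutative is trivial (`E -> L` is onto). -/
def SolvablyClosed (E : Type) [Field E] : Prop :=
  ∀ (L : Type) [Field L] [Algebra E L] [IsGalois E L],
    (∀ σ τ : L ≃ₐ[E] L, σ * τ = τ * σ) → Function.Surjective (algebraMap E L)

/-- The homomorphism `α : Gal(E1/F1) -> Gal(E2/F2)` is induced by a field embedding
`j : E2 -> E1`, that is `g (j x) = j (α g x)` for all `g` and `x`. -/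
def InducedByEmbedding {F1 F2 E1 E2 : Type} [Field F1] [Field F2] [Field E1] [Field E2]
    [Algebra F1 E1] [Algebra F2 E2] (α : (E1 ≃ₐ[F1] E1) →* (E2 ≃ₐ[F2] E2)) : Prop :=
  ∃ j : E2 →+* E1, ∀ (g : E1 ≃ₐ[F1] E1) (x : E2), g (j x) = j (α g x)

/-- Uchida's conjecture (Q1): for number fields `F1`, `F2` and Galois extensions `Ei/Fi` with
`Ei` solvably closed, every continuous homomorphism `Gal(E1/F1) -> Gal(E2/F2)` (Krull
topologies) with open image is induced by a field embedding `E2 -> E1`. -/
def UchidaConjecture : Prop :=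
  ∀ (F1 F2 E1 E2 : Type) [Field F1] [Field F2] [Field E1] [Field E2]
    [NumberField F1] [NumberField F2] [Algebra F1 E1] [Algebra F2 E2]
    [IsGalois F1 E1] [IsGalois F2 E2],
    SolvablyClosed E1 → SolvablyClosed E2 →
    ∀ α : (E1 ≃ₐ[F1] E1) →* (E2 ≃ₐ[F2] E2), Continuous α → IsOpen (Set.range α) →
    InducedByEmbedding α

/-- The special case of Uchida's conjecture for surjective homomorphisms. -/
def UchidaConjectureSurjective : Prop :=
  ∀ (F1 F2 E1 E2 : Type) [Field F1] [Field F2] [Field E1] [Field E2]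
    [NumberField F1] [NumberField F2] [Algebra F1 E1] [Algebra F2 E2]
    [IsGalois F1 E1] [IsGalois F2 E2],
    SolvablyClosed E1 → SolvablyClosed E2 →
    ∀ α : (E1 ≃ₐ[F1] E1) →* (E2 ≃ₐ[F2] E2), Continuous α → Function.Surjective α →
    InducedByEmbedding α

end Vale.Agent.Lib.P024
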