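import Mathlib
import Vale.Agent.Lib.P024.Defs

namespace Vale.Agent.Lib.P024

open IntermediateField

section

variable {F1 F2 E1 E2 : Type*} [Field F1] [Field F2] [Field E1] [Field E2]
  [Algebra F1 E1] [Algebra F2 E2]

/-- corestriction of a homomorphism of Galois groups to the Galois group over an
intermediate field fixed by its image -/
noncomputable def corestrict (α : (E1 ≃ₐ[F1] E1) →* (E2 ≃ₐ[F2] E2)) (K : IntermediateField F2 E2)
    (h : ∀ g, α g ∈ K.fixingSubgroup) : (E1 ≃ₐ[F1] E1) →* (E2 ≃ₐ[K] E2) :=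
  (IntermediateField.fixingSubgroupEquiv K).toMonoidHom.comp (α.codRestrict K.fixingSubgroup h)

lemma corestrict_apply (α : (E1 ≃ₐ[F1] E1) →* (E2 ≃ₐ[F2] E2)) (K : IntermediateField F2 E2)
    (h : ∀ g, α g ∈ K.fixingSubgroup) (g : E1 ≃ₐ[F1] E1) (x : E2) :
    corestrict α K h g x = α g x := rfl

lemma continuous_corestrict (α : (E1 ≃ₐ[F1] E1) →* (E2 ≃ₐ[F2] E2)) (K : IntermediateField F2 E2)
    [FiniteDimensional F2 K]
    (h : ∀ g, α g ∈ K.fixingSubgroup) (hα : Continuous α) : Continuous (corestrict α K h) := by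
  apply continuous_of_continuousAt_one
  rw [continuousAt_def, map_one]
  intro s hs
  rw [krullTopology_mem_nhds_one_iff] at hs
  obtain ⟨M, hM, hMs⟩ := hs
  have hfin : FiniteDimensional F2 (M.restrictScalars F2) := by
    have : FiniteDimensional F2 M := FiniteDimensional.trans F2 K M
    exact this
  have hopen : IsOpen ((M.restrictScalars F2).fixingSubgroup : Set (E2 ≃ₐ[F2] E2)) :=
    IntermediateField.fixingSubgroup_isOpen _
  have hmem : (α ⁻¹' ((M.restrictScalars F2).fixingSubgroup : Set (E2 ≃ₐ[F2] E2))) ∈ nhds (1 : E1 ≃ₐ[F1] E1) := by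
    apply (hopen.preimage hα).mem_nhds
    simp
  refine Filter.mem_of_superset hmem ?_
  intro g hg
  apply hMs
  rw [Set.mem_preimage, SetLike.mem_coe, IntermediateField.mem_fixingSubgroup_iff] at hg
  rw [SetLike.mem_coe, IntermediateField.mem_fixingSubgroup_iff]
  intro x hx
  exact hg x hx

end

/-- Reduction of Uchida's conjecture to surjective homomorphisms. -/
theorem reduction_to_surjective (hsurj : UchidaConjectureSurjective) : UchidaConjecture := by
  intro F1 F2 E1 E2 _ _ _ _ _ _ _ _ _ _ h1 h2 α hα hopen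
  have hHopen : IsOpen ((α.range : Subgroup (E2 ≃ₐ[F2] E2)) : Set (E2 ≃ₐ[F2] E2)) := by
    rw [MonoidHom.coe_range]
    exact hopen
  have hHclosed : IsClosed ((α.range : Subgroup (E2 ≃ₐ[F2] E2)) : Set (E2 ≃ₐ[F2] E2)) :=
    Subgroup.isClosed_of_isOpen _ hHopen
  have hfix : (IntermediateField.fixedField α.range).fixingSubgroup = α.range :=
    InfiniteGalois.fixingSubgroup_fixedField ⟨α.range, hHclosed⟩
  have hfin : FiniteDimensional F2 (IntermediateField.fixedField α.range) := by
    rw [← InfiniteGalois.isOpen_iff_finite, hfix]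
    exact hHopen
  have : NumberField (IntermediateField.fixedField α.range) :=
    NumberField.of_module_finite F2 _
  have hmem : ∀ g, α g ∈ (IntermediateField.fixedField α.range).fixingSubgroup := by
    intro g
    rw [hfix]
    exact ⟨g, rfl⟩
  have hsur : Function.Surjective (corestrict α (IntermediateField.fixedField α.range) hmem) := by
    intro σ
    have hσ : ((IntermediateField.fixingSubgroupEquiv
        (IntermediateField.fixedField α.range)).symm σ : E2 ≃ₐ[F2] E2) ∈ α.range := by
      have hgen : ∀ τ : E2 ≃ₐ[F2] E2,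
          τ ∈ (IntermediateField.fixedField α.range).fixingSubgroup → τ ∈ α.range := by
        intro τ hτ
        rw [hfix] at hτ
        exact hτ
      exact hgen _ ((IntermediateField.fixingSubgroupEquiv
        (IntermediateField.fixedField α.range)).symm σ).2
    obtain ⟨g, hg⟩ := hσ
    refine ⟨g, ?_⟩
    ext x
    rw [corestrict_apply, hg]
    rfl
  obtain ⟨j, hj⟩ := hsurj F1 (IntermediateField.fixedField α.range) E1 E2 h1 h2
    (corestrict α (IntermediateField.fixedField α.range) hmem)
    (continuous_corestrict α _ hmem hα) hsur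
  exact ⟨j, fun g x => by rw [hj g x, corestrict_apply]⟩

theorem surjective_case_of_conjecture (h : UchidaConjecture) : UchidaConjectureSurjective := by
  intro F1 F2 E1 E2 _ _ _ _ _ _ _ _ _ _ h1 h2 α hα hs
  exact h F1 F2 E1 E2 h1 h2 α hα (by rw [Set.range_eq_univ.mpr hs]; exact isOpen_univ)

end Vale.Agent.Lib.P024
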